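import Vale.Agent.P235.H134.Grid.Planar

/-!
P235 (helper558).  The double of a grid at any of its vertices is planar: invert the straight
drawing about a point of a cell at the vertex, put a second copy next to the first one.
-/

set_option autoImplicit false

open SimpleGraph Vale.Agent.P235 Vale.Agent.P235.H134

namespace Vale.Agent.P235.H558

/-- two copies of `H`, joined by an edge between the two copies of `v` -/
def dbl {W : Type} (H : SimpleGraph W) (v : W) : SimpleGraph (W ⊕ W) where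
  Adj x y := match x, y with
    | Sum.inl a, Sum.inl b => H.Adj a b
    | Sum.inr a, Sum.inr b => H.Adj a b
    | Sum.inl a, Sum.inr b => a = v ∧ b = v
    | Sum.inr a, Sum.inl b => a = v ∧ b = v
  symm := ⟨fun x y h => by
    rcases x with x | x <;> rcases y with y | y
    · exact SimpleGraph.Adj.symm (G := H) h
    · exact ⟨h.2, h.1⟩
    · exact ⟨h.2, h.1⟩
    · exact SimpleGraph.Adj.symm (G := H) h⟩
  loopless := ⟨fun x h => by rcases x with x | x <;> exact H.irrefl h⟩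

theorem planar_of_arcs {W : Type} (H : SimpleGraph W) (P : W → ℝ × ℝ)
    (arc : W → W → ℝ → ℝ × ℝ) (hP : Function.Injective P)
    (hc : ∀ a b, H.Adj a b → ContinuousOn (arc a b) (Set.Icc 0 1) ∧
      Set.InjOn (arc a b) (Set.Icc 0 1) ∧ arc a b 0 = P a ∧ arc a b 1 = P b)
    (hv : ∀ a b c, H.Adj a b → ∀ t ∈ Set.Icc (0 : ℝ) 1, arc a b t = P c → c = a ∨ c = b)
    (hx : ∀ a b a' b', H.Adj a b → H.Adj a' b' → s(a, b) ≠ s(a', b') →
      ∀ t ∈ Set.Icc (0 : ℝ) 1, ∀ t' ∈ Set.Icc (0 : ℝ) 1, arc a b t = arc a' b' t' →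
        ∃ c, arc a b t = P c) : Planar H := by
  have ho : ∀ e : Sym2 W, ∃ a b, s(a, b) = e := by
    intro e
    induction e with
    | _ a b => exact ⟨a, b, rfl⟩
  choose f g hfg using ho
  have hadj : ∀ e ∈ H.edgeSet, H.Adj (f e) (g e) := by
    intro e he
    rw [← SimpleGraph.mem_edgeSet, hfg]
    exact he
  refine ⟨P, fun e => arc (f e) (g e), hP, fun e he => ?_, fun a b hab => ?_, fun e he a ha => ?_,
    fun e he e' he' hne => ?_⟩
  · exact ⟨(hc _ _ (hadj e he)).1, (hc _ _ (hadj e he)).2.1⟩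
  · obtain ⟨-, -, h0, h1⟩ := hc _ _ (hadj s(a, b) hab)
    show ({arc (f s(a, b)) (g s(a, b)) 0, arc (f s(a, b)) (g s(a, b)) 1} : Set (ℝ × ℝ)) = _
    rw [h0, h1]
    have h2 := hfg s(a, b)
    rw [Sym2.eq_iff] at h2
    rcases h2 with ⟨h2, h3⟩ | ⟨h2, h3⟩
    · rw [h2, h3]
    · rw [h2, h3, Set.pair_comm]
  · obtain ⟨t, ht, hta⟩ := ha
    rw [← hfg e, Sym2.mem_iff]
    exact hv _ _ _ (hadj e he) t ht hta
  · rintro z ⟨⟨t, ht, htz⟩, t', ht', htz'⟩
    obtain ⟨c, hcc⟩ := hx _ _ _ _ (hadj e he) (hadj e' he') (by rw [hfg, hfg]; exact hne) t ht t'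
      ht' (htz.trans htz'.symm)
    exact ⟨c, by rw [← hcc]; exact htz⟩

/-! ### the inversion -/

/-- the inversion in the unit circle -/
noncomputable def iv (z : ℝ × ℝ) : ℝ × ℝ := (z.1 / (z.1 ^ 2 + z.2 ^ 2), z.2 / (z.1 ^ 2 + z.2 ^ 2))

theorem iv_iv (z : ℝ × ℝ) : iv (iv z) = z := by
  obtain ⟨a, b⟩ := z
  by_cases h : a ^ 2 + b ^ 2 = 0
  · have ha : a = 0 := by nlinarith [sq_nonneg a, sq_nonneg b]
    have hb : b = 0 := by nlinarith [sq_nonneg a, sq_nonneg b]
    simp [iv, ha, hb]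
  · have h1 : (a / (a ^ 2 + b ^ 2)) ^ 2 + (b / (a ^ 2 + b ^ 2)) ^ 2 = 1 / (a ^ 2 + b ^ 2) := by
      field_simp
    simp only [iv, h1]
    ext
    · simp only
      field_simp
    · simp only
      field_simp

theorem iv_inj : Function.Injective iv := fun x y h => by rw [← iv_iv x, h, iv_iv]

theorem iv_bound {z : ℝ × ℝ} (h : 1 / 4 ≤ z.1 ^ 2 + z.2 ^ 2) :
    |(iv z).1| ≤ 2 ∧ |(iv z).2| ≤ 2 := by
  have hn : 0 < z.1 ^ 2 + z.2 ^ 2 := by linarith
  constructor
  · refine abs_le_of_sq_le_sq ?_ (by norm_num)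
    show (z.1 / (z.1 ^ 2 + z.2 ^ 2)) ^ 2 ≤ 2 ^ 2
    rw [div_pow, div_le_iff₀ (by positivity)]
    nlinarith [sq_nonneg z.1, sq_nonneg z.2]
  · refine abs_le_of_sq_le_sq ?_ (by norm_num)
    show (z.2 / (z.1 ^ 2 + z.2 ^ 2)) ^ 2 ≤ 2 ^ 2
    rw [div_pow, div_le_iff₀ (by positivity)]
    nlinarith [sq_nonneg z.1, sq_nonneg z.2]

/-- points with a half-integer coordinate -/
def OnG (z : ℝ × ℝ) : Prop := (∃ n : ℤ, z.1 = n + 1 / 2) ∨ ∃ n : ℤ, z.2 = n + 1 / 2

theorem half_sq (n : ℤ) : (1 : ℝ) / 4 ≤ ((n : ℝ) + 1 / 2) ^ 2 := by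
  have h : (0 : ℝ) ≤ (n : ℝ) * (n + 1) := by
    have : (0 : ℤ) ≤ n * (n + 1) := by
      rcases le_or_gt 0 n with h | h
      · positivity
      · nlinarith
    exact_mod_cast this
  nlinarith

theorem OnG.sq {z : ℝ × ℝ} (h : OnG z) : 1 / 4 ≤ z.1 ^ 2 + z.2 ^ 2 := by
  rcases h with ⟨n, h⟩ | ⟨n, h⟩
  · rw [h]
    nlinarith [half_sq n, sq_nonneg z.2]
  · rw [h]
    nlinarith [half_sq n, sq_nonneg z.1]

theorem OnG.diag {z : ℝ × ℝ} (h : OnG z) {s : ℝ} (hs : 1 ≤ s) (hz : iv z = (s, s)) :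
    s = 1 ∧ z = (1 / 2, 1 / 2) := by
  have h1 : z = iv (s, s) := by rw [← hz, iv_iv]
  have h2 : iv (s, s) = (1 / (2 * s), 1 / (2 * s)) := by
    have hs0 : s ≠ 0 := by linarith
    ext
    · simp only [iv]
      field_simp
      ring
    · simp only [iv]
      field_simp
      ring
  rw [h2] at h1
  have h3 : 0 < 1 / (2 * s) := by positivity
  have h4 : 1 / (2 * s) ≤ 1 / 2 := by
    rw [div_le_div_iff₀ (by positivity) (by norm_num)]
    linarith
  have key : ∀ n : ℤ, 1 / (2 * s) = (n : ℝ) + 1 / 2 → s = 1 := by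
    intro n hn
    have h5 : (-1 : ℝ) < n := by linarith
    have h6 : (n : ℝ) ≤ 0 := by linarith
    have h7 : (-1 : ℤ) < n := by exact_mod_cast h5
    have h8 : n ≤ 0 := by exact_mod_cast h6
    have h9 : n = 0 := by omega
    rw [h9] at hn
    have h10 : (1 : ℝ) / (2 * s) = 1 / 2 := by rw [hn]; norm_num
    rw [div_eq_div_iff (by positivity) (by norm_num)] at h10
    linarith
  have h5 : s = 1 := by
    rcases h with ⟨n, h⟩ | ⟨n, h⟩
    · rw [h1] at h
      exact key n h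
    · rw [h1] at h
      exact key n h
  refine ⟨h5, ?_⟩
  rw [h1, h5]
  norm_num

/-! ### the straight drawing -/

/-- the point of a grid vertex, `x` is drawn at `(1/2, 1/2)` -/
noncomputable def pt {r : ℕ} (x w : Fin r × Fin r) : ℝ × ℝ :=
  ((w.1.val : ℝ) - x.1.val + 1 / 2, (w.2.val : ℝ) - x.2.val + 1 / 2)

theorem pt_inj {r : ℕ} (x : Fin r × Fin r) : Function.Injective (pt x) := by
  intro u w h
  have h1 := congrArg Prod.fst h
  have h2 := congrArg Prod.snd h
  simp only [pt, add_left_inj, sub_left_inj, Nat.cast_inj] at h1 h2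
  exact Prod.ext (Fin.ext h1) (Fin.ext h2)

/-- straight segments -/
noncomputable def sg (a b : ℝ × ℝ) (t : ℝ) : ℝ × ℝ :=
  ((1 - t) * a.1 + t * b.1, (1 - t) * a.2 + t * b.2)

theorem sg_cont (a b : ℝ × ℝ) : Continuous (sg a b) := by
  unfold sg
  fun_prop

theorem sg_zero (a b : ℝ × ℝ) : sg a b 0 = a := by simp [sg]

theorem sg_one (a b : ℝ × ℝ) : sg a b 1 = b := by simp [sg]

theorem sg_swap (a b : ℝ × ℝ) (t : ℝ) : sg a b t = sg b a (1 - t) := by
  simp only [sg]
  ext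
  · simp only
    ring
  · simp only
    ring

theorem sg_inj {a b : ℝ × ℝ} (h : a ≠ b) : Function.Injective (sg a b) := by
  intro t t' ht
  have h1 := congrArg Prod.fst ht
  have h2 := congrArg Prod.snd ht
  simp only [sg] at h1 h2
  by_contra hne
  apply h
  have hne' : t - t' ≠ 0 := sub_ne_zero.2 hne
  ext
  · have : (t - t') * (b.1 - a.1) = 0 := by linarith
    rcases mul_eq_zero.1 this with h | h
    · exact absurd h hne'
    · linarith
  · have : (t - t') * (b.2 - a.2) = 0 := by linarith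
    rcases mul_eq_zero.1 this with h | h
    · exact absurd h hne'
    · linarith

/-- edges in the positive direction -/
def Pos {r : ℕ} (u w : Fin r × Fin r) : Prop :=
  (u.1.val = w.1.val ∧ u.2.val + 1 = w.2.val) ∨ (u.1.val + 1 = w.1.val ∧ u.2.val = w.2.val)

theorem pos_of_adj {r : ℕ} {u w : Fin r × Fin r} (h : (grid r).Adj u w) : Pos u w ∨ Pos w u := by
  rw [grid, SimpleGraph.boxProd_adj] at h
  rcases h with ⟨h, h'⟩ | ⟨h, h'⟩
  · rw [SimpleGraph.pathGraph_adj] at h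
    rcases h with h | h
    · exact Or.inl (Or.inr ⟨h, congrArg Fin.val h'⟩)
    · exact Or.inr (Or.inr ⟨h, congrArg Fin.val h'.symm⟩)
  · rw [SimpleGraph.pathGraph_adj] at h
    rcases h with h | h
    · exact Or.inl (Or.inl ⟨congrArg Fin.val h', h⟩)
    · exact Or.inr (Or.inl ⟨congrArg Fin.val h'.symm, h⟩)

/-- the points of a positive edge -/
theorem pos_pt {r : ℕ} {x u w : Fin r × Fin r} (h : Pos u w) (t : ℝ) :
    (sg (pt x u) (pt x w) t = ((u.1.val : ℝ) - x.1.val + 1 / 2, (u.2.val : ℝ) + t - x.2.val + 1 / 2)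
      ∧ u.1.val = w.1.val ∧ u.2.val + 1 = w.2.val) ∨
    (sg (pt x u) (pt x w) t = ((u.1.val : ℝ) + t - x.1.val + 1 / 2, (u.2.val : ℝ) - x.2.val + 1 / 2)
      ∧ u.1.val + 1 = w.1.val ∧ u.2.val = w.2.val) := by
  rcases h with ⟨h1, h2⟩ | ⟨h1, h2⟩
  · left
    refine ⟨?_, h1, h2⟩
    simp only [sg, pt]
    rw [← h1, ← h2]
    ext
    · simp only
      ring
    · simp only
      push_cast
      ring
  · right
    refine ⟨?_, h1, h2⟩
    simp only [sg, pt]
    rw [← h1, ← h2]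
    ext
    · simp only
      push_cast
      ring
    · simp only
      ring

theorem nat_of {i j : ℕ} {t : ℝ} (ht : t ∈ Set.Icc (0 : ℝ) 1) (h : (i : ℝ) + t = j) :
    (j = i ∧ t = 0) ∨ (j = i + 1 ∧ t = 1) := by
  have h1 : (i : ℝ) ≤ j := by linarith [ht.1]
  have h2 : (j : ℝ) ≤ (i + 1 : ℕ) := by push_cast; linarith [ht.2]
  have h3 : i ≤ j := by exact_mod_cast h1
  have h4 : j ≤ i + 1 := by exact_mod_cast h2
  rcases Nat.eq_or_lt_of_le h3 with h5 | h5
  · left
    refine ⟨h5.symm, ?_⟩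
    rw [h5] at h
    linarith
  · right
    have h6 : j = i + 1 := by omega
    refine ⟨h6, ?_⟩
    rw [h6] at h
    push_cast at h
    linarith

theorem nat_of' {i j : ℕ} {t t' : ℝ} (ht : t ∈ Set.Icc (0 : ℝ) 1) (ht' : t' ∈ Set.Icc (0 : ℝ) 1)
    (h : (i : ℝ) + t = j + t') : i = j ∨ t = 0 ∨ t = 1 := by
  rcases Nat.lt_trichotomy i j with h1 | h1 | h1
  · right; right
    have h2 : ((i + 1 : ℕ) : ℝ) ≤ j := by exact_mod_cast h1
    push_cast at h2
    linarith [ht.2, ht'.1]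
  · exact Or.inl h1
  · right; left
    have h2 : ((j + 1 : ℕ) : ℝ) ≤ i := by exact_mod_cast h1
    push_cast at h2
    linarith [ht.1, ht'.2]

theorem end_of {r : ℕ} {x u w : Fin r × Fin r} {t : ℝ} (h : t = 0 ∨ t = 1) :
    ∃ c, sg (pt x u) (pt x w) t = pt x c := by
  rcases h with rfl | rfl
  · exact ⟨u, sg_zero _ _⟩
  · exact ⟨w, sg_one _ _⟩

/-- vertices on edges are ends -/
theorem vert_pos {r : ℕ} {x u w c : Fin r × Fin r} (h : Pos u w) {t : ℝ}
    (ht : t ∈ Set.Icc (0 : ℝ) 1) (hc : sg (pt x u) (pt x w) t = pt x c) : c = u ∨ c = w := by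
  have h01 : t = 0 ∨ t = 1 := by
    rcases pos_pt (x := x) h t with ⟨h1, -⟩ | ⟨h1, -⟩
    · rw [h1] at hc
      have h2 := congrArg Prod.snd hc
      simp only [pt] at h2
      rcases nat_of ht (by linarith : (u.2.val : ℝ) + t = c.2.val) with h | h
      · exact Or.inl h.2
      · exact Or.inr h.2
    · rw [h1] at hc
      have h2 := congrArg Prod.fst hc
      simp only [pt] at h2
      rcases nat_of ht (by linarith : (u.1.val : ℝ) + t = c.1.val) with h | h
      · exact Or.inl h.2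
      · exact Or.inr h.2
  rcases h01 with rfl | rfl
  · rw [sg_zero] at hc
    exact Or.inl (pt_inj x hc).symm
  · rw [sg_one] at hc
    exact Or.inr (pt_inj x hc).symm

theorem cross_pos {r : ℕ} {x u w u' w' : Fin r × Fin r} (h : Pos u w) (h' : Pos u' w')
    (hne : s(u, w) ≠ s(u', w')) {t t' : ℝ} (ht : t ∈ Set.Icc (0 : ℝ) 1)
    (ht' : t' ∈ Set.Icc (0 : ℝ) 1) (he : sg (pt x u) (pt x w) t = sg (pt x u') (pt x w') t') :
    ∃ c, sg (pt x u) (pt x w) t = pt x c := by
  apply end_of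
  rcases pos_pt (x := x) h t with ⟨h1, h2, h3⟩ | ⟨h1, h2, h3⟩ <;>
    rcases pos_pt (x := x) h' t' with ⟨h1', h2', h3'⟩ | ⟨h1', h2', h3'⟩
  · rw [h1, h1'] at he
    have e1 := congrArg Prod.fst he
    have e2 := congrArg Prod.snd he
    simp only at e1 e2
    have e3 : u.1.val = u'.1.val := by
      have : (u.1.val : ℝ) = u'.1.val := by linarith
      exact_mod_cast this
    rcases nat_of' ht ht' (by linarith : (u.2.val : ℝ) + t = u'.2.val + t') with h4 | h4
    · exfalso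
      apply hne
      rw [Prod.ext (Fin.ext e3) (Fin.ext h4) (x := u) (y := u'),
        Prod.ext (Fin.ext (by omega)) (Fin.ext (by omega)) (x := w) (y := w')]
    · exact h4
  · rw [h1, h1'] at he
    have e1 := congrArg Prod.fst he
    have e2 := congrArg Prod.snd he
    simp only at e1 e2
    rcases nat_of ht (by linarith : (u.2.val : ℝ) + t = u'.2.val) with h4 | h4
    · exact Or.inl h4.2
    · exact Or.inr h4.2
  · rw [h1, h1'] at he
    have e1 := congrArg Prod.fst he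
    have e2 := congrArg Prod.snd he
    simp only at e1 e2
    rcases nat_of ht (by linarith : (u.1.val : ℝ) + t = u'.1.val) with h4 | h4
    · exact Or.inl h4.2
    · exact Or.inr h4.2
  · rw [h1, h1'] at he
    have e1 := congrArg Prod.fst he
    have e2 := congrArg Prod.snd he
    simp only at e1 e2
    have e3 : u.2.val = u'.2.val := by
      have : (u.2.val : ℝ) = u'.2.val := by linarith
      exact_mod_cast this
    rcases nat_of' ht ht' (by linarith : (u.1.val : ℝ) + t = u'.1.val + t') with h4 | h4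
    · exfalso
      apply hne
      rw [Prod.ext (Fin.ext h4) (Fin.ext e3) (x := u) (y := u'),
        Prod.ext (Fin.ext (by omega)) (Fin.ext (by omega)) (x := w) (y := w')]
    · exact h4

theorem flip_mem {t : ℝ} (ht : t ∈ Set.Icc (0 : ℝ) 1) : 1 - t ∈ Set.Icc (0 : ℝ) 1 :=
  ⟨by linarith [ht.2], by linarith [ht.1]⟩

theorem vert_adj {r : ℕ} {x u w c : Fin r × Fin r} (h : (grid r).Adj u w) {t : ℝ}
    (ht : t ∈ Set.Icc (0 : ℝ) 1) (hc : sg (pt x u) (pt x w) t = pt x c) : c = u ∨ c = w := by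
  rcases pos_of_adj h with h | h
  · exact vert_pos h ht hc
  · rw [sg_swap] at hc
    exact (vert_pos h (flip_mem ht) hc).symm

theorem cross_adj {r : ℕ} {x u w u' w' : Fin r × Fin r} (h : (grid r).Adj u w)
    (h' : (grid r).Adj u' w') (hne : s(u, w) ≠ s(u', w')) {t t' : ℝ}
    (ht : t ∈ Set.Icc (0 : ℝ) 1) (ht' : t' ∈ Set.Icc (0 : ℝ) 1)
    (he : sg (pt x u) (pt x w) t = sg (pt x u') (pt x w') t') :
    ∃ c, sg (pt x u) (pt x w) t = pt x c := by
  rcases pos_of_adj h with h | h <;> rcases pos_of_adj h' with h' | h'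
  · exact cross_pos h h' hne ht ht' he
  · rw [sg_swap (pt x u')] at he
    exact cross_pos h h' (by rw [Sym2.eq_swap (a := w')]; exact hne) ht (flip_mem ht') he
  · rw [sg_swap (pt x u)] at he ⊢
    exact cross_pos h h' (by rw [Sym2.eq_swap (a := w)]; exact hne) (flip_mem ht) ht' he
  · rw [sg_swap (pt x u), sg_swap (pt x u')] at he
    rw [sg_swap (pt x u)]
    exact cross_pos h h' (by rw [Sym2.eq_swap (a := w), Sym2.eq_swap (a := w')]; exact hne)
      (flip_mem ht) (flip_mem ht') he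

theorem onG_pt {r : ℕ} (x w : Fin r × Fin r) : OnG (pt x w) :=
  Or.inl ⟨(w.1.val : ℤ) - x.1.val, by simp [pt]⟩

theorem onG_adj {r : ℕ} {x u w : Fin r × Fin r} (h : (grid r).Adj u w) (t : ℝ) :
    OnG (sg (pt x u) (pt x w) t) := by
  have key : ∀ {u w : Fin r × Fin r}, Pos u w → ∀ t, OnG (sg (pt x u) (pt x w) t) := by
    intro u w h t
    rcases pos_pt (x := x) h t with ⟨h1, -⟩ | ⟨h1, -⟩
    · exact Or.inl ⟨(u.1.val : ℤ) - x.1.val, by rw [h1]; simp⟩
    · exact Or.inr ⟨(u.2.val : ℤ) - x.2.val, by rw [h1]; simp⟩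
  rcases pos_of_adj h with h | h
  · exact key h t
  · rw [sg_swap]
    exact key h (1 - t)

/-! ### the double drawing -/

/-- point reflection -/
noncomputable def rf (z : ℝ × ℝ) : ℝ × ℝ := (10 - z.1, 10 - z.2)

theorem rf_rf (z : ℝ × ℝ) : rf (rf z) = z := by simp [rf]

theorem rf_inj : Function.Injective rf := fun x y h => by rw [← rf_rf x, h, rf_rf]

/-- the points of the vertices -/
noncomputable def dP {r : ℕ} (x : Fin r × Fin r) : (Fin r × Fin r) ⊕ (Fin r × Fin r) → ℝ × ℝ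
  | Sum.inl w => iv (pt x w)
  | Sum.inr w => rf (iv (pt x w))

/-- the arcs -/
noncomputable def dA {r : ℕ} (x : Fin r × Fin r) : (Fin r × Fin r) ⊕ (Fin r × Fin r) →
    (Fin r × Fin r) ⊕ (Fin r × Fin r) → ℝ → ℝ × ℝ
  | Sum.inl u, Sum.inl w => fun t => iv (sg (pt x u) (pt x w) t)
  | Sum.inr u, Sum.inr w => fun t => rf (iv (sg (pt x u) (pt x w) t))
  | Sum.inl _, Sum.inr _ => sg (1, 1) (9, 9)
  | Sum.inr _, Sum.inl _ => sg (9, 9) (1, 1)

theorem left_right {z z' : ℝ × ℝ} (h : OnG z) (h' : OnG z') : iv z ≠ rf (iv z') := by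
  intro e
  have h1 := abs_le.1 (iv_bound h.sq).1
  have h2 := abs_le.1 (iv_bound h'.sq).1
  have h3 := congrArg Prod.fst e
  simp only [rf] at h3
  linarith [h1.2, h2.2]

theorem iv_half : iv (1 / 2, 1 / 2) = (1, 1) := by
  simp only [iv]
  norm_num

theorem pt_self {r : ℕ} (x : Fin r × Fin r) : pt x x = (1 / 2, 1 / 2) := by simp [pt]

theorem dP_inl {r : ℕ} (x : Fin r × Fin r) : dP x (Sum.inl x) = (1, 1) := by
  show iv (pt x x) = _
  rw [pt_self, iv_half]

theorem dP_inr {r : ℕ} (x : Fin r × Fin r) : dP x (Sum.inr x) = (9, 9) := by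
  show rf (iv (pt x x)) = _
  rw [pt_self, iv_half]
  simp only [rf]
  norm_num

theorem mid_left {z : ℝ × ℝ} (h : OnG z) {s : ℝ} (hs : s ∈ Set.Icc (1 : ℝ) 9)
    (hz : iv z = (s, s)) : z = (1 / 2, 1 / 2) := (h.diag hs.1 hz).2

theorem mid_right {z : ℝ × ℝ} (h : OnG z) {s : ℝ} (hs : s ∈ Set.Icc (1 : ℝ) 9)
    (hz : rf (iv z) = (s, s)) : z = (1 / 2, 1 / 2) := by
  have h1 : iv z = (10 - s, 10 - s) := by
    rw [← rf_rf (iv z), hz]
    rfl
  exact (h.diag (by linarith [hs.2]) h1).2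

theorem iv_cont : ContinuousOn iv {z | OnG z} := by
  have h : ∀ z ∈ {z : ℝ × ℝ | OnG z}, z.1 ^ 2 + z.2 ^ 2 ≠ 0 := by
    intro z hz
    have := OnG.sq hz
    intro h0
    rw [h0] at this
    norm_num at this
  unfold iv
  exact ContinuousOn.prodMk (ContinuousOn.div (by fun_prop) (by fun_prop) h)
    (ContinuousOn.div (by fun_prop) (by fun_prop) h)

theorem rf_cont : Continuous rf := by
  unfold rf
  fun_prop

/-- the three kinds of edges -/
theorem kinds {r : ℕ} {x : Fin r × Fin r} {a b : (Fin r × Fin r) ⊕ (Fin r × Fin r)}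
    (h : (dbl (grid r) x).Adj a b) :
    (∃ u w, a = Sum.inl u ∧ b = Sum.inl w ∧ (grid r).Adj u w) ∨
    (∃ u w, a = Sum.inr u ∧ b = Sum.inr w ∧ (grid r).Adj u w) ∨
    (((a = Sum.inl x ∧ b = Sum.inr x) ∨ (a = Sum.inr x ∧ b = Sum.inl x)) ∧
      ∀ t ∈ Set.Icc (0 : ℝ) 1, ∃ s ∈ Set.Icc (1 : ℝ) 9, dA x a b t = (s, s)) := by
  rcases a with a | a <;> rcases b with b | b
  · exact Or.inl ⟨a, b, rfl, rfl, h⟩
  · obtain ⟨rfl, rfl⟩ : a = x ∧ b = x := h
    refine Or.inr (Or.inr ⟨Or.inl ⟨rfl, rfl⟩, fun t ht => ⟨1 + 8 * t, ⟨by linarith [ht.1],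
      by linarith [ht.2]⟩, ?_⟩⟩)
    show sg (1, 1) (9, 9) t = _
    simp only [sg]
    ext
    · simp only
      ring
    · simp only
      ring
  · obtain ⟨rfl, rfl⟩ : a = x ∧ b = x := h
    refine Or.inr (Or.inr ⟨Or.inr ⟨rfl, rfl⟩, fun t ht => ⟨9 - 8 * t, ⟨by linarith [ht.2],
      by linarith [ht.1]⟩, ?_⟩⟩)
    show sg (9, 9) (1, 1) t = _
    simp only [sg]
    ext
    · simp only
      ring
    · simp only
      ring
  · exact Or.inr (Or.inl ⟨a, b, rfl, rfl, h⟩)

theorem dA_seg {r : ℕ} {x u w : Fin r × Fin r} (h : (grid r).Adj u w) :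
    ContinuousOn (fun t => iv (sg (pt x u) (pt x w) t)) (Set.Icc 0 1) ∧
    Function.Injective (fun t => iv (sg (pt x u) (pt x w) t)) :=
  ⟨iv_cont.comp (sg_cont _ _).continuousOn fun t _ => onG_adj h t,
    iv_inj.comp (sg_inj fun e => h.ne (pt_inj x e))⟩

/-- the double of a grid is planar -/
theorem planar_dbl {r : ℕ} (x : Fin r × Fin r) : Planar (dbl (grid r) x) := by
  refine planar_of_arcs _ (dP x) (dA x) ?_ ?_ ?_ ?_
  · rintro (a | a) (b | b) h
    · exact congrArg Sum.inl (pt_inj x (iv_inj h))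
    · exact absurd h (left_right (onG_pt x a) (onG_pt x b))
    · exact absurd h.symm (left_right (onG_pt x b) (onG_pt x a))
    · exact congrArg Sum.inr (pt_inj x (iv_inj (rf_inj h)))
  · intro a b h
    rcases kinds h with ⟨u, w, rfl, rfl, h'⟩ | ⟨u, w, rfl, rfl, h'⟩ |
      ⟨⟨rfl, rfl⟩ | ⟨rfl, rfl⟩, -⟩
    · refine ⟨(dA_seg h').1, (dA_seg h').2.injOn, ?_, ?_⟩
      · show iv (sg _ _ 0) = iv _
        rw [sg_zero]
      · show iv (sg _ _ 1) = iv _
        rw [sg_one]
    · refine ⟨rf_cont.comp_continuousOn (dA_seg h').1, (rf_inj.comp (dA_seg h').2).injOn, ?_, ?_⟩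
      · show rf (iv (sg _ _ 0)) = rf (iv _)
        rw [sg_zero]
      · show rf (iv (sg _ _ 1)) = rf (iv _)
        rw [sg_one]
    · refine ⟨(sg_cont _ _).continuousOn, (sg_inj (by norm_num)).injOn, ?_, ?_⟩
      · rw [dP_inl]
        exact sg_zero _ _
      · rw [dP_inr]
        exact sg_one _ _
    · refine ⟨(sg_cont _ _).continuousOn, (sg_inj (by norm_num)).injOn, ?_, ?_⟩
      · rw [dP_inr]
        exact sg_zero _ _
      · rw [dP_inl]
        exact sg_one _ _
  · intro a b c h t ht hc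
    rcases kinds h with ⟨u, w, rfl, rfl, h'⟩ | ⟨u, w, rfl, rfl, h'⟩ | ⟨hab, hs⟩
    · rcases c with c | c
      · rcases vert_adj h' ht (iv_inj hc) with rfl | rfl
        · exact Or.inl rfl
        · exact Or.inr rfl
      · exact absurd hc (left_right (onG_adj h' t) (onG_pt x c))
    · rcases c with c | c
      · exact absurd hc.symm (left_right (onG_pt x c) (onG_adj h' t))
      · rcases vert_adj h' ht (iv_inj (rf_inj hc)) with rfl | rfl
        · exact Or.inl rfl
        · exact Or.inr rfl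
    · obtain ⟨s, hs, hs'⟩ := hs t ht
      rw [hs'] at hc
      have hcx : c = Sum.inl x ∨ c = Sum.inr x := by
        rcases c with c | c
        · left
          have := mid_left (onG_pt x c) hs hc.symm
          rw [← pt_self x] at this
          exact congrArg Sum.inl (pt_inj x this)
        · right
          have := mid_right (onG_pt x c) hs hc.symm
          rw [← pt_self x] at this
          exact congrArg Sum.inr (pt_inj x this)
      rcases hab with ⟨rfl, rfl⟩ | ⟨rfl, rfl⟩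
      · exact hcx
      · exact hcx.symm
  · intro a b a' b' h h' hne t ht t' ht' he
    rcases kinds h with ⟨u, w, rfl, rfl, g⟩ | ⟨u, w, rfl, rfl, g⟩ | ⟨hab, hs⟩ <;>
      rcases kinds h' with ⟨u', w', rfl, rfl, g'⟩ | ⟨u', w', rfl, rfl, g'⟩ | ⟨hab', hs'⟩
    · obtain ⟨c, hc⟩ := cross_adj g g' (fun e => hne (by
        have := congrArg (Sym2.map (Sum.inl (β := Fin r × Fin r))) e
        simpa only [Sym2.map_mk] using this)) ht ht' (iv_inj he)
      exact ⟨Sum.inl c, congrArg iv hc⟩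
    · exact absurd he (left_right (onG_adj g t) (onG_adj g' t'))
    · obtain ⟨s, hs, hs'⟩ := hs' t' ht'
      refine ⟨Sum.inl x, ?_⟩
      have h1 := mid_left (onG_adj g t) hs (he.trans hs')
      show iv (sg _ _ t) = iv _
      rw [h1, pt_self]
    · exact absurd he.symm (left_right (onG_adj g' t') (onG_adj g t))
    · obtain ⟨c, hc⟩ := cross_adj g g' (fun e => hne (by
        have := congrArg (Sym2.map (Sum.inr (α := Fin r × Fin r))) e
        simpa only [Sym2.map_mk] using this)) ht ht' (iv_inj (rf_inj he))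
      exact ⟨Sum.inr c, congrArg (fun z => rf (iv z)) hc⟩
    · obtain ⟨s, hs, hs'⟩ := hs' t' ht'
      refine ⟨Sum.inr x, ?_⟩
      have h1 := mid_right (onG_adj g t) hs (he.trans hs')
      show rf (iv (sg _ _ t)) = rf (iv _)
      rw [h1, pt_self]
    · obtain ⟨s, hs, hs'⟩ := hs t ht
      refine ⟨Sum.inl x, ?_⟩
      have h1 := mid_left (onG_adj g' t') hs (he.symm.trans hs')
      rw [he]
      show iv (sg _ _ t') = iv _
      rw [h1, pt_self]
    · obtain ⟨s, hs, hs'⟩ := hs t ht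
      refine ⟨Sum.inr x, ?_⟩
      have h1 := mid_right (onG_adj g' t') hs (he.symm.trans hs')
      rw [he]
      show rf (iv (sg _ _ t')) = rf (iv _)
      rw [h1, pt_self]
    · exfalso
      apply hne
      rcases hab with ⟨rfl, rfl⟩ | ⟨rfl, rfl⟩ <;> rcases hab' with ⟨rfl, rfl⟩ | ⟨rfl, rfl⟩
      · rfl
      · exact Sym2.eq_swap
      · exact Sym2.eq_swap
      · rfl

end Vale.Agent.P235.H558
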