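import Vale.Agent.P235.H558.Dpl
import Vale.Agent.P235.H134.Grid.Excl
import Vale.Agent.P235.H502.Part
import Vale.Agent.P235.H750.VDefs

/-!
P235 (helper558).  Rooted planar graphs are good rooted excluded minors: a connected graph which
contains two copies of `H` joined by an edge between the copies of `v` has `H` as a minor rooted at
any vertex; the double of a grid at any vertex is planar.
-/

set_option autoImplicit false

open SimpleGraph Vale.Agent.P235 Vale.Agent.P235.H134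

namespace Vale.Agent.P235.H558

theorem conn_union {V : Type} {G : SimpleGraph V} {A B : Set V} (hA : (G.induce A).Connected)
    (hB : (G.induce B).Connected) (h : ∃ a ∈ A, ∃ b ∈ B, G.Adj a b) :
    (G.induce (A ∪ B)).Connected := by
  obtain ⟨a, ha, b, hb, hab⟩ := h
  have h0 : (G.induce (A ∪ B)).Adj ⟨a, Or.inl ha⟩ ⟨b, Or.inr hb⟩ := hab
  have h1 : ∀ v (hv : v ∈ A ∪ B), (G.induce (A ∪ B)).Reachable ⟨a, Or.inl ha⟩ ⟨v, hv⟩ := by
    rintro v (hv | hv)
    · exact (hA.preconnected ⟨a, ha⟩ ⟨v, hv⟩).map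
        (SimpleGraph.induceHomOfLE G (Set.subset_union_left : A ⊆ A ∪ B)).toHom
    · exact h0.reachable.trans ((hB.preconnected ⟨b, hb⟩ ⟨v, hv⟩).map
        (SimpleGraph.induceHomOfLE G (Set.subset_union_right : B ⊆ A ∪ B)).toHom)
  have : Nonempty (A ∪ B : Set V) := ⟨⟨a, Or.inl ha⟩⟩
  exact ⟨fun u v => (h1 u.1 u.2).symm.trans (h1 v.1 v.2)⟩

/-- the union of the branch sets over a connected graph is connected -/
theorem conn_iUnion {V W : Type} {G : SimpleGraph V} {H : SimpleGraph W} (hH : H.Connected)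
    {ν : W → Set V} (hν : ∀ w, (G.induce (ν w)).Connected)
    (ha : ∀ w w', H.Adj w w' → ∃ x ∈ ν w, ∃ y ∈ ν w', G.Adj x y) :
    (G.induce (⋃ w, ν w)).Connected := by
  obtain ⟨w₀⟩ := hH.nonempty
  have hsub : ∀ w, ν w ⊆ ⋃ w, ν w := fun w => Set.subset_iUnion ν w
  have key : ∀ {w w' : W} (_ : H.Walk w w') (x y : V) (hx : x ∈ ν w) (hy : y ∈ ν w'),
      (G.induce (⋃ w, ν w)).Reachable ⟨x, hsub w hx⟩ ⟨y, hsub w' hy⟩ := by
    intro w w' p
    induction p with
    | nil =>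
      intro x y hx hy
      exact ((hν _).preconnected ⟨x, hx⟩ ⟨y, hy⟩).map
        (SimpleGraph.induceHomOfLE G (hsub _)).toHom
    | cons h p ih =>
      intro x y hx hy
      obtain ⟨x', hx', y', hy', h'⟩ := ha _ _ h
      have h1 := ((hν _).preconnected ⟨x, hx⟩ ⟨x', hx'⟩).map
        (SimpleGraph.induceHomOfLE G (hsub _)).toHom
      have h2 : (G.induce (⋃ w, ν w)).Adj ⟨x', hsub _ hx'⟩ ⟨y', hsub _ hy'⟩ := h'
      exact (h1.trans h2.reachable).trans (ih y' y hy' hy)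
  obtain ⟨⟨x₀, hx₀⟩⟩ := (hν w₀).nonempty
  have : Nonempty (⋃ w, ν w : Set V) := ⟨⟨x₀, hsub w₀ hx₀⟩⟩
  refine ⟨fun a b => ?_⟩
  obtain ⟨a, ha'⟩ := a
  obtain ⟨b, hb'⟩ := b
  obtain ⟨w, hw⟩ := Set.mem_iUnion.1 ha'
  obtain ⟨w', hw'⟩ := Set.mem_iUnion.1 hb'
  obtain ⟨p⟩ := hH.preconnected w w'
  exact key p a b hw hw'

/-- the double rooted at any vertex -/
theorem dbl_rminor {V W : Type} [Finite V] {G : SimpleGraph V} {H : SimpleGraph W} {v : W}
    (hG : G.Connected) (hH : H.Connected) (hm : IsMinor (dbl H v) G) (b : V) :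
    H750.RMinor H v G b := by
  obtain ⟨μ, h1, h2, h3⟩ := hm
  have : Nonempty (W ⊕ W) := ⟨Sum.inl v⟩
  obtain ⟨p, hp1, hp2⟩ := H502.exists_part hG μ (fun i => h1 i) h2
  -- both sides in one statement
  have key : ∀ (f g : W → W ⊕ W), (∀ w, f w ≠ g v → True) → Function.Injective f →
      (∀ w w', f w ≠ g w') → (∀ w w', H.Adj w w' → (dbl H v).Adj (f w) (f w')) →
      (∀ w w', H.Adj w w' → (dbl H v).Adj (g w) (g w')) → (dbl H v).Adj (f v) (g v) →
      (∃ w, p b = g w) → H750.RMinor H v G b := by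
    intro f g _ hf hfg hfa hga hv ⟨w₁, hw₁⟩
    have hadj : ∀ i j, (dbl H v).Adj i j → ∃ x ∈ p ⁻¹' {i}, ∃ y ∈ p ⁻¹' {j}, G.Adj x y := by
      intro i j hij
      obtain ⟨x, hx, y, hy, hxy⟩ := h3 i j hij
      exact ⟨x, hp1 i x hx, y, hp1 j y hy, hxy⟩
    obtain ⟨U, hU⟩ : ∃ U : Set V, U = ⋃ w, p ⁻¹' {g w} := ⟨_, rfl⟩
    have hUc : (G.induce U).Connected := by
      rw [hU]
      exact conn_iUnion hH (fun w => hp2 (g w)) fun w w' h => hadj _ _ (hga w w' h)
    have hUm : ∀ x, x ∈ U ↔ ∃ w, p x = g w := by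
      intro x
      rw [hU, Set.mem_iUnion]
      rfl
    classical
    obtain ⟨κ, hκv, hκn⟩ : ∃ κ : W → Set V, κ v = p ⁻¹' {f v} ∪ U ∧
        ∀ w, w ≠ v → κ w = p ⁻¹' {f w} :=
      ⟨fun w => if w = v then p ⁻¹' {f v} ∪ U else p ⁻¹' {f w}, if_pos rfl, fun w hw => if_neg hw⟩
    refine ⟨κ, ?_, ?_, ?_, ?_⟩
    · intro w
      by_cases hw : w = v
      · rw [hw, hκv]
        refine conn_union (hp2 (f v)) hUc ?_
        obtain ⟨x, hx, y, hy, hxy⟩ := hadj _ _ hv
        exact ⟨x, hx, y, (hUm y).2 ⟨v, hy⟩, hxy⟩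
      · rw [hκn w hw]
        exact hp2 (f w)
    · intro w w' hww
      rw [Set.disjoint_left]
      intro x hx hx'
      by_cases hw : w = v
      · have hw' : w' ≠ v := fun e => hww (hw.trans e.symm)
        rw [hw, hκv] at hx
        rw [hκn w' hw'] at hx'
        rcases hx with hx | hx
        · exact hw' (hf (Eq.trans (Eq.symm hx') hx : f w' = f v))
        · obtain ⟨u, hu⟩ := (hUm x).1 hx
          exact hfg w' u (Eq.trans (Eq.symm hx') hu)
      · rw [hκn w hw] at hx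
        by_cases hw' : w' = v
        · rw [hw', hκv] at hx'
          rcases hx' with hx' | hx'
          · exact hw (hf (Eq.trans (Eq.symm hx) hx' : f w = f v))
          · obtain ⟨u, hu⟩ := (hUm x).1 hx'
            exact hfg w u (Eq.trans (Eq.symm hx) hu)
        · rw [hκn w' hw'] at hx'
          exact hww (hf (Eq.trans (Eq.symm hx) hx' : f w = f w'))
    · intro w w' hww
      obtain ⟨x, hx, y, hy, hxy⟩ := hadj _ _ (hfa w w' hww)
      have hsub : ∀ u, p ⁻¹' {f u} ⊆ κ u := by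
        intro u z hz
        by_cases hu : u = v
        · rw [hu] at hz ⊢
          rw [hκv]
          exact Or.inl hz
        · rw [hκn u hu]
          exact hz
      exact ⟨x, hsub w hx, y, hsub w' hy, hxy⟩
    · rw [hκv]
      exact Or.inr ((hUm b).2 ⟨w₁, hw₁⟩)
  rcases hpb : p b with w | w
  · exact key Sum.inr Sum.inl (fun _ _ => trivial) Sum.inr_injective (fun _ _ => Sum.inr_ne_inl)
      (fun _ _ h => h) (fun _ _ h => h) ⟨rfl, rfl⟩ ⟨w, hpb⟩
  · exact key Sum.inl Sum.inr (fun _ _ => trivial) Sum.inl_injective (fun _ _ => Sum.inl_ne_inr)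
      (fun _ _ h => h) (fun _ _ h => h) ⟨rfl, rfl⟩ ⟨w, hpb⟩

/-- rooted minors are transitive -/
theorem rminor_trans {W X V : Type} {H : SimpleGraph W} {h : W} {K : SimpleGraph X} {k : X}
    {G : SimpleGraph V} {b : V} (h1 : H750.RMinor H h K k) (h2 : H750.RMinor K k G b) :
    H750.RMinor H h G b := by
  obtain ⟨μ, a1, a2, a3, a4⟩ := h1
  obtain ⟨ν, b1, b2, b3, b4⟩ := h2
  refine ⟨fun a => ⋃ x ∈ μ a, ν x, fun a => ?_, fun a c hac => ?_, fun a c hac => ?_, ?_⟩
  · have hh := conn_iUnion (a1 a) (ν := fun x : μ a => ν x.1) (fun x => b1 x.1)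
      fun x y hxy => b3 x.1 y.1 hxy
    have he : (⋃ x : μ a, ν x.1) = ⋃ x ∈ μ a, ν x := by
      ext z
      simp
    rw [he] at hh
    exact hh
  · rw [Set.disjoint_left]
    intro z hz hz'
    obtain ⟨x, hx, hzx⟩ := Set.mem_iUnion₂.1 hz
    obtain ⟨y, hy, hzy⟩ := Set.mem_iUnion₂.1 hz'
    have hxy : x ≠ y := by
      rintro rfl
      exact Set.disjoint_left.1 (a2 a c hac) hx hy
    exact Set.disjoint_left.1 (b2 x y hxy) hzx hzy
  · obtain ⟨x, hx, y, hy, hxy⟩ := a3 a c hac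
    obtain ⟨z, hz, w, hw, hzw⟩ := b3 x y hxy
    exact ⟨z, Set.mem_iUnion₂.2 ⟨x, hx, hz⟩, w, Set.mem_iUnion₂.2 ⟨y, hy, hw⟩, hzw⟩
  · exact Set.mem_iUnion₂.2 ⟨k, a4, b4⟩

theorem grid_conn {r : ℕ} (x : Fin r × Fin r) : (grid r).Connected := by
  obtain ⟨m, rfl⟩ : ∃ m, r = m + 1 := ⟨r - 1, by have := x.1.2; omega⟩
  exact (pathGraph_connected m).boxProd (pathGraph_connected m)

/-- a grid with any root: no excluded complete minor needed -/
theorem rgrid_strong (n : ℕ) (h : Fin n × Fin n) : ∃ C : ℝ, ∀ (V : Type) [Finite V]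
    (G : SimpleGraph V) (b : V), G.Connected → ¬ H750.RMinor (grid n) h G b →
    DistortionLE G C := by
  obtain ⟨C, hC⟩ := excludedPlanar _ (dbl (grid n) h) (planar_dbl h)
  exact ⟨C, fun V _ G b hG hn => hC V G hG fun hm => hn (dbl_rminor hG (grid_conn h) hm b)⟩

/-- (RGRID) -/
theorem rGrid : H750.RGridStmt := fun n h _ => by
  obtain ⟨C, hC⟩ := rgrid_strong n h
  exact ⟨C, fun V _ G b hG _ hn => hC V G b hG hn⟩

/-- every planar graph with any root -/
theorem rplanar_strong (W : Type) [Finite W] (H : SimpleGraph W) (h : W) (hH : Planar H) :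
    ∃ C : ℝ, ∀ (V : Type) [Finite V] (G : SimpleGraph V) (b : V), G.Connected →
      ¬ H750.RMinor H h G b → DistortionLE G C := by
  obtain ⟨r, -, μ, m1, m2, m3⟩ := H205.planar W H hH
  obtain ⟨⟨x, hx⟩⟩ := (m1 h).nonempty
  obtain ⟨C, hC⟩ := rgrid_strong r x
  exact ⟨C, fun V _ G b hG hn => hC V G b hG fun hm =>
    hn (rminor_trans ⟨μ, m1, m2, m3, hx⟩ hm)⟩

theorem rPlanar (W : Type) [Finite W] (H : SimpleGraph W) (h : W) (hH : Planar H) :
    H750.RFree H h := fun _ => by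
  obtain ⟨C, hC⟩ := rplanar_strong W H h hH
  exact ⟨C, fun V _ G b hG _ hn => hC V G b hG hn⟩

end Vale.Agent.P235.H558
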